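import Vale.Agent.P254.Rev.SP
import Vale.Agent.P254.Perm.OneDim
import Vale.Agent.P254.Perm.Sec956

/-!
P254: bodies of revolution, and the bodies invariant under the changes of sign and the permutations
of all coordinates but one.
-/

open MeasureTheory Set

namespace Vale.Agent.P254.Rev

open Perm Unc

theorem oneDim_all {m : ℕ} (hm : 1 ≤ m) : OneDim m := fun hab _ hc hp => one_dim m hm hab hc hp

theorem secSt_all {m : ℕ} (hm : 1 ≤ m) : SecSt m := fun hc hL hne => sec m hm hc hL hne

variable {m : ℕ} {K U S : Set (Fin (m + 1) → ℝ)}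

/-- `K ⊆ ℝ^(m+1)` (`m ≥ 2`) fills at least `99/100` of an affine image of a convex body `U` which is
invariant under the changes of sign and the permutations of the coordinates `1, …, m`. -/
theorem near_lt (hm : 2 ≤ m) (hK : IsConvexBody K) (hS : IsSimplex S)
    (hU : IsConvexBody U) (hs : SignPerm U) {A : Matrix (Fin (m + 1)) (Fin (m + 1)) ℝ}
    (hA : A.det ≠ 0) {b : Fin (m + 1) → ℝ} (hKU : K ⊆ aff A b '' U)
    (hvol : (99 / 100) * (volume (aff A b '' U)).toReal ≤ (volume K).toReal) :
    isoConst K < isoConst S :=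
  sp_near hm (oneDim_all (by omega)) (secSt_all (by omega)) hK hS hU hs hA hKU hvol

/-- Bodies of revolution. -/
theorem revolution_lt (hm : 2 ≤ m) (hK : IsConvexBody K) (hS : IsSimplex S) (hr : IsRev K) :
    isoConst K < isoConst S := by
  have hV := volume_pos_of_body hK
  have e : aff (1 : Matrix (Fin (m + 1)) (Fin (m + 1)) ℝ) 0 '' K = K := by
    have h : aff (1 : Matrix (Fin (m + 1)) (Fin (m + 1)) ℝ) 0 = id := by
      funext x
      simp [aff]
    rw [h, image_id]
  refine near_lt hm hK hS hK hr.signPerm (A := 1) (by simp) (b := 0) ?_ ?_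
  · rw [e]
  · rw [e]; linarith

end Vale.Agent.P254.Rev
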