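import Vale.Agent.P254.Rev.Gen

/-!
P254: convex bodies in `ℝ^(m+1)` whose slices `{x₀ = s}` are centred, have a diagonal matrix of
second moments, and satisfy a second moment bound with a constant `Γ`.
-/

open MeasureTheory Set

namespace Vale.Agent.P254.Rev

open Perm

/-- The statement of the one-dimensional inequality `Perm.one_dim`. -/
def OneDim (m : ℕ) : Prop :=
  ∀ {a b : ℝ}, a ≤ b → ∀ {g : ℝ → ℝ}, ConcaveOn ℝ (Icc a b) g → (∀ s ∈ Icc a b, 0 ≤ g s) →
    ((∫ t in a..b, g t ^ m) * (∫ t in a..b, t ^ 2 * g t ^ m) -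
      (∫ t in a..b, t * g t ^ m) ^ 2) * (∫ t in a..b, g t ^ (m + 2)) ^ m ≤
    kap m * (∫ t in a..b, g t ^ m) ^ (m + 4)

/-- The statement of `Perm.sec`. -/
def SecSt (m : ℕ) : Prop :=
  ∀ {L : Set (ℝ × (Fin m → ℝ))}, Convex ℝ L → IsCompact L → L.Nonempty →
    ∃ (a b : ℝ) (g : ℝ → ℝ), a ≤ b ∧ ConcaveOn ℝ (Icc a b) g ∧
    (∀ s ∈ Icc a b, 0 ≤ g s) ∧ (∀ s ∈ Icc a b, g s ^ m = (volume {y | (s, y) ∈ L}).toReal) ∧
    ∀ s ∉ Icc a b, {y | (s, y) ∈ L} = ∅

/-- The slice `{x₀ = s}` of `K`. -/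
def slc {m : ℕ} (K : Set (Fin (m + 1) → ℝ)) (s : ℝ) : Set (Fin m → ℝ) :=
  {y | (Fin.cons s y : Fin (m + 1) → ℝ) ∈ K}

/-- Splitting off the coordinate `0`. -/
noncomputable def spl (m : ℕ) : (Fin (m + 1) → ℝ) ≃ₜ ℝ × (Fin m → ℝ) where
  toFun x := (x 0, fun i => x i.succ)
  invFun p := Fin.cons p.1 p.2
  left_inv x := by
    funext j
    refine Fin.cases ?_ (fun i => ?_) j
    · simp
    · simp
  right_inv p := by
    ext1
    · simp
    · funext i; simp
  continuous_toFun := by fun_prop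
  continuous_invFun := by
    refine continuous_pi fun j => ?_
    refine Fin.cases ?_ (fun i => ?_) j
    · simpa using continuous_fst
    · simp only [Fin.cons_succ]; fun_prop

theorem spl_symm (m : ℕ) (p : ℝ × (Fin m → ℝ)) : (spl m).symm p = Fin.cons p.1 p.2 := rfl

theorem mp_spl (m : ℕ) : MeasurePreserving (spl m) volume volume :=
  volume_preserving_piFinSuccAbove (fun _ : Fin (m + 1) => ℝ) 0

theorem spl_affine (m : ℕ) (p q : ℝ × (Fin m → ℝ)) (a b : ℝ) :
    (spl m).symm (a • p + b • q) = a • (spl m).symm p + b • (spl m).symm q := by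
  funext j
  refine Fin.cases ?_ (fun i => ?_) j
  · simp [spl_symm]
  · simp [spl_symm]

/-- `K` in `ℝ × ℝ^m`. -/
def sp {m : ℕ} (K : Set (Fin (m + 1) → ℝ)) : Set (ℝ × (Fin m → ℝ)) := {p | (spl m).symm p ∈ K}

theorem sp_pre {m : ℕ} (K : Set (Fin (m + 1) → ℝ)) : (spl m) ⁻¹' (sp K) = K := by
  ext x
  simp [sp]

theorem sp_img {m : ℕ} (K : Set (Fin (m + 1) → ℝ)) : sp K = (spl m) '' K := by
  rw [Homeomorph.image_eq_preimage_symm]; rfl

theorem sp_compact {m : ℕ} {K : Set (Fin (m + 1) → ℝ)} (hK : IsCompact K) : IsCompact (sp K) := by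
  rw [sp_img]
  exact hK.image (spl m).continuous

theorem sp_convex {m : ℕ} {K : Set (Fin (m + 1) → ℝ)} (hK : Convex ℝ K) : Convex ℝ (sp K) := by
  intro p hp q hq a b ha hb hab
  have h := hK hp hq ha hb hab
  change (spl m).symm (a • p + b • q) ∈ K
  rw [spl_affine]
  exact h

theorem sp_slice {m : ℕ} (K : Set (Fin (m + 1) → ℝ)) (s : ℝ) : {y | (s, y) ∈ sp K} = slc K s := rfl

theorem sp_int {m : ℕ} (K : Set (Fin (m + 1) → ℝ)) (f : ℝ × (Fin m → ℝ) → ℝ) :
    ∫ p in sp K, f p = ∫ x in K, f (x 0, fun i => x i.succ) := by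
  have h := (mp_spl m).setIntegral_preimage_emb (spl m).measurableEmbedding f (sp K)
  rw [sp_pre] at h
  exact h.symm

theorem sp_vol {m : ℕ} (K : Set (Fin (m + 1) → ℝ)) : volume (sp K) = volume K := by
  have h := (mp_spl m).measure_preimage_emb (spl m).measurableEmbedding (sp K)
  rw [sp_pre] at h
  exact h.symm

/-- The general statement: second moments. -/
theorem moments_le {m : ℕ} (hm : 1 ≤ m) (hone : OneDim m) (hsec : SecSt m)
    {K : Set (Fin (m + 1) → ℝ)} (hc : Convex ℝ K) (hK : IsCompact K) {Γ : ℝ} (hΓ : 0 ≤ Γ)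
    (hmean : ∀ s i, ∫ y in slc K s, y i = 0)
    (hB : ∀ s i, (∫ y in slc K s, y i ^ 2) ^ m ≤ Γ * (volume (slc K s)).toReal ^ (m + 2))
    (i : Fin m) :
    (∫ x in K, x i.succ) = 0 ∧ (∫ x in K, x 0 * x i.succ) = 0 ∧
      (∫ x in K, x i.succ ^ 2) ^ m *
        ((volume K).toReal * (∫ x in K, x 0 ^ 2) - (∫ x in K, x 0) ^ 2) ≤
        Γ * kap m * (volume K).toReal ^ (m + 4) := by
  rcases K.eq_empty_or_nonempty with rfl | hne
  · simp
  have hne' : (sp K).Nonempty := by
    rw [sp_img]; exact hne.image _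
  obtain ⟨a, b, g, hab, hconc, hg0, hg, hout⟩ := hsec (sp_convex hc) (sp_compact hK) hne'
  obtain ⟨h1, h2, h3⟩ := slices_core hΓ hm (sp_compact hK) i hab hg0 hg hout
    (fun s => hmean s i) (fun s => hB s i) (hone hab hconc hg0)
  rw [sp_int K (fun p => p.2 i)] at h1
  rw [sp_int K (fun p => p.1 * p.2 i)] at h2
  rw [sp_int K (fun p => p.2 i ^ 2), sp_int K (fun p => p.1 ^ 2), sp_int K (fun p => p.1),
    sp_vol] at h3
  exact ⟨h1, h2, h3⟩

/-- The cross moments. -/
theorem cross_zero {m : ℕ} {K : Set (Fin (m + 1) → ℝ)} (hK : IsCompact K) {i j : Fin m}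
    (hcross : ∀ s, ∫ y in slc K s, y i * y j = 0) : ∫ x in K, x i.succ * x j.succ = 0 := by
  have h := sp_int K (fun p => p.2 i * p.2 j)
  simp only at h
  rw [← h, int_slice (sp_compact hK) (f := fun p => p.2 i * p.2 j) (by fun_prop)]
  simp only [sp_slice]
  simp_rw [hcross]
  simp

theorem cov_diag {m : ℕ} {K : Set (Fin (m + 1) → ℝ)} (hK : IsCompact K)
    (hV : 0 < (volume K).toReal)
    (h1 : ∀ i : Fin m, ∫ x in K, x i.succ = 0) (h2 : ∀ i : Fin m, ∫ x in K, x 0 * x i.succ = 0)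
    (h3 : ∀ i j : Fin m, i ≠ j → ∫ x in K, x i.succ * x j.succ = 0) :
    covMatrix K = Matrix.diagonal (Fin.cons
      (((volume K).toReal * (∫ x in K, x 0 ^ 2) - (∫ x in K, x 0) ^ 2) / (volume K).toReal ^ 2)
      fun k : Fin m => (volume K).toReal⁻¹ * ∫ x in K, x k.succ ^ 2) := by
  have hc : ∀ k : Fin m, centroid K k.succ = 0 := by
    intro k
    rw [centroid, h1 k, mul_zero]
  have int : ∀ f : (Fin (m + 1) → ℝ) → ℝ, Continuous f → IntegrableOn f K := fun f hf =>
    hf.continuousOn.integrableOn_compact hK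
  set T : ℝ := centroid K 0 with hT
  have hT1 : ∫ x in K, x 0 = (volume K).toReal * T := by
    rw [hT, centroid]
    field_simp
  have h0 : ∀ k : Fin m, ∫ x in K, (x 0 - T) * x k.succ = 0 := by
    intro k
    have e : ∀ x : Fin (m + 1) → ℝ, (x 0 - T) * x k.succ = x 0 * x k.succ - T * x k.succ :=
      fun x => by ring
    simp_rw [e]
    rw [integral_sub (int _ (by fun_prop)) (int _ (by fun_prop)), integral_const_mul, h1 k, h2 k]
    ring
  ext i j
  rw [covMatrix, Matrix.diagonal_apply]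
  induction i using Fin.cases with
  | zero =>
    induction j using Fin.cases with
    | zero =>
      simp only [if_true, Fin.cons_zero]
      rw [← hT]
      have e : ∀ x : Fin (m + 1) → ℝ, (x 0 - T) * (x 0 - T) = (x 0 ^ 2 - 2 * T * x 0) + T ^ 2 :=
        fun x => by ring
      simp_rw [e]
      rw [integral_add (int _ (by fun_prop)) (int _ (by fun_prop)),
        integral_sub (int _ (by fun_prop)) (int _ (by fun_prop)), integral_const_mul,
        integral_const, smul_eq_mul, Measure.real, Measure.restrict_apply_univ, hT1]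
      field_simp
      ring
    | succ k =>
      rw [if_neg (Fin.succ_ne_zero k).symm]
      simp only [hc, sub_zero]
      rw [← hT, h0 k, mul_zero]
  | succ i =>
    induction j using Fin.cases with
    | zero =>
      rw [if_neg (Fin.succ_ne_zero i)]
      simp only [hc, sub_zero]
      rw [← hT]
      have e : ∀ x : Fin (m + 1) → ℝ, x i.succ * (x 0 - T) = (x 0 - T) * x i.succ :=
        fun x => by ring
      simp_rw [e]
      rw [h0 i, mul_zero]
    | succ j =>
      simp only [hc, sub_zero]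
      by_cases hij : i = j
      · subst hij
        simp only [if_true, pow_two, Fin.cons_succ]
      · have hij' : i.succ ≠ j.succ := fun h => hij (Fin.succ_injective m h)
        rw [if_neg hij', h3 i j hij, mul_zero]

/-- The determinant bound. -/
theorem det_le_gen {m : ℕ} (hm : 1 ≤ m) (hone : OneDim m) (hsec : SecSt m)
    {K : Set (Fin (m + 1) → ℝ)} (hc : Convex ℝ K) (hK : IsCompact K)
    (hV : 0 < (volume K).toReal) {Γ : ℝ} (hΓ : 0 ≤ Γ)
    (hmean : ∀ s i, ∫ y in slc K s, y i = 0)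
    (hcross : ∀ s i j, i ≠ j → ∫ y in slc K s, y i * y j = 0)
    (hB : ∀ s i, (∫ y in slc K s, y i ^ 2) ^ m ≤ Γ * (volume (slc K s)).toReal ^ (m + 2)) :
    (covMatrix K).det / (volume K).toReal ^ 2 ≤ Γ * kap m := by
  have hm0 : m ≠ 0 := by omega
  have key := fun i => moments_le hm hone hsec hc hK hΓ hmean hB i
  have hcov := cov_diag hK hV (fun i => (key i).1) (fun i => (key i).2.1)
    (fun i j hij => cross_zero hK fun s => hcross s i j hij)
  have hk0 : 0 ≤ kap m := by unfold kap; positivity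
  set V : ℝ := (volume K).toReal with hVd
  set X : ℝ := V * (∫ x in K, x 0 ^ 2) - (∫ x in K, x 0) ^ 2 with hX
  have hdet : (covMatrix K).det = X / V ^ 2 * ∏ i : Fin m, (V⁻¹ * ∫ x in K, x i.succ ^ 2) := by
    rw [hcov, Matrix.det_diagonal, Fin.prod_univ_succ]
    simp only [Fin.cons_zero, Fin.cons_succ]
  have hpsd : 0 ≤ X / V ^ 2 := by
    have h := congrFun (congrFun hcov 0) 0
    rw [Matrix.diagonal_apply_eq, Fin.cons_zero] at h
    rw [← h, covMatrix]
    refine mul_nonneg (by positivity) (integral_nonneg fun x => mul_self_nonneg _)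
  have hX0 : 0 ≤ X := by
    have h1 := mul_nonneg hpsd (sq_nonneg V)
    rwa [div_mul_cancel₀ _ (by positivity)] at h1
  set w : Fin m → ℝ := fun i => ∫ x in K, x i.succ ^ 2 with hw
  have hw0 : ∀ i, 0 ≤ w i := fun i => integral_nonneg fun x => sq_nonneg _
  have hp : (X * ∏ i, w i) ^ m ≤ (Γ * kap m * V ^ (m + 4)) ^ m := by
    calc (X * ∏ i, w i) ^ m = ∏ i : Fin m, (w i ^ m * X) := by
          rw [Finset.prod_mul_distrib, Finset.prod_const, Finset.card_univ, Fintype.card_fin,
            Finset.prod_pow, mul_pow, mul_comm]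
      _ ≤ ∏ _i : Fin m, (Γ * kap m * V ^ (m + 4)) :=
          Finset.prod_le_prod (fun i _ => mul_nonneg (pow_nonneg (hw0 i) _) hX0)
            fun i _ => (key i).2.2
      _ = _ := by rw [Finset.prod_const, Finset.card_univ, Fintype.card_fin]
  have hq : X * ∏ i, w i ≤ Γ * kap m * V ^ (m + 4) :=
    le_of_pow_le_pow_left₀ hm0 (by positivity) hp
  have e : (covMatrix K).det / V ^ 2 = (X * ∏ i, w i) / V ^ (m + 4) := by
    rw [hdet, Finset.prod_mul_distrib, Finset.prod_const, Finset.card_univ, Fintype.card_fin,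
      inv_pow]
    simp only [hw]
    field_simp
    ring
  rw [e, div_le_iff₀ (by positivity)]
  exact hq

end Vale.Agent.P254.Rev
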