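import Vale.Agent.P254.Perm.SlicesCore

/-!
P254: convex bodies in `ℝ × ℝ^m` all of whose slices satisfy a second moment bound with a
constant `Γ` (general form of `Perm.slices_core`).
-/

open MeasureTheory Set

namespace Vale.Agent.P254.Rev

open Perm

section

variable {m : ℕ} {L : Set (ℝ × (Fin m → ℝ))}

theorem slices_core {Γ : ℝ} (hΓ : 0 ≤ Γ) (hm : 1 ≤ m) (hL : IsCompact L) (i : Fin m) {a b : ℝ} {g : ℝ → ℝ}
    (hab : a ≤ b) (hg0 : ∀ s ∈ Icc a b, 0 ≤ g s)
    (hg : ∀ s ∈ Icc a b, g s ^ m = (volume {y | (s, y) ∈ L}).toReal)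
    (hout : ∀ s ∉ Icc a b, {y | (s, y) ∈ L} = ∅)
    (hmean : ∀ s, ∫ y in {y | (s, y) ∈ L}, y i = 0)
    (hB : ∀ s, (∫ y in {y | (s, y) ∈ L}, y i ^ 2) ^ m ≤
      Γ * (volume {y | (s, y) ∈ L}).toReal ^ (m + 2))
    (hone : ((∫ t in a..b, g t ^ m) * (∫ t in a..b, t ^ 2 * g t ^ m) -
        (∫ t in a..b, t * g t ^ m) ^ 2) * (∫ t in a..b, g t ^ (m + 2)) ^ m ≤
      kap m * (∫ t in a..b, g t ^ m) ^ (m + 4)) :
    (∫ p in L, p.2 i) = 0 ∧ (∫ p in L, p.1 * p.2 i) = 0 ∧
      (∫ p in L, p.2 i ^ 2) ^ m *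
        ((volume L).toReal * (∫ p in L, p.1 ^ 2) - (∫ p in L, p.1) ^ 2) ≤
        Γ * kap m * (volume L).toReal ^ (m + 4) := by
  have hm0 : m ≠ 0 := by omega
  have hmR : (0 : ℝ) < m := by exact_mod_cast Nat.pos_of_ne_zero hm0
  refine ⟨?_, ?_, ?_⟩
  · rw [int_slice hL (f := fun p => p.2 i) (by fun_prop)]
    simp_rw [hmean]
    simp
  · rw [int_slice hL (f := fun p => p.1 * p.2 i) (by fun_prop)]
    simp_rw [integral_const_mul, hmean]
    simp
  -- the basic integrals
  have eM : (volume L).toReal = ∫ t in a..b, g t ^ m := by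
    rw [vol_slice' hL hab hout]
    refine intervalIntegral.integral_congr fun s hs => ?_
    rw [uIcc_of_le hab] at hs
    exact (hg s hs).symm
  have e2 : ∫ p in L, p.1 ^ 2 = ∫ t in a..b, t ^ 2 * g t ^ m := by
    rw [int_slice' hL hab hout (f := fun p => p.1 ^ 2) (by fun_prop)]
    refine intervalIntegral.integral_congr fun s hs => ?_
    rw [uIcc_of_le hab] at hs
    simp only [integral_const, smul_eq_mul]
    rw [hg s hs, Measure.real, Measure.restrict_apply_univ, mul_comm]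
  have e1 : ∫ p in L, p.1 = ∫ t in a..b, t * g t ^ m := by
    rw [int_slice' hL hab hout (f := fun p => p.1) (by fun_prop)]
    refine intervalIntegral.integral_congr fun s hs => ?_
    rw [uIcc_of_le hab] at hs
    simp only [integral_const, smul_eq_mul]
    rw [hg s hs, Measure.real, Measure.restrict_apply_univ, mul_comm]
  set V : ℝ → ℝ := fun s => (volume {y | (s, y) ∈ L}).toReal with hV
  obtain ⟨C, hC⟩ := slice_vol hL
  have hV0 : ∀ s, 0 ≤ V s := fun s => ENNReal.toReal_nonneg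
  have hVm : Measurable V := measurable_slice_vol hL
  -- `g` on `[a, b]`
  have hgV : ∀ s ∈ Icc a b, g s = V s ^ ((1 : ℝ) / m) := by
    intro s hs
    show g s = (volume {y | (s, y) ∈ L}).toReal ^ ((1 : ℝ) / m)
    rw [← hg s hs, ← Real.rpow_natCast, ← Real.rpow_mul (hg0 s hs), mul_one_div_cancel hmR.ne',
      Real.rpow_one]
  set G : ℝ → ℝ := fun s => V s ^ ((1 : ℝ) / m) with hG
  have hG0 : ∀ s, 0 ≤ G s := fun s => Real.rpow_nonneg (hV0 s) _
  have hGm : Measurable G := hVm.pow_const _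
  have hGC : ∀ s, G s ≤ C ^ ((1 : ℝ) / m) := fun s =>
    Real.rpow_le_rpow (hV0 s) (hC s) (by positivity)
  have hGint : ∀ k : ℕ, IntegrableOn (fun s => G s ^ k) (Ioc a b) := by
    intro k
    refine Measure.integrableOn_of_bounded (M := (C ^ ((1 : ℝ) / m)) ^ k) (by simp)
      (hGm.pow_const k).aestronglyMeasurable (Filter.Eventually.of_forall fun s => ?_)
    rw [Real.norm_eq_abs, abs_of_nonneg (pow_nonneg (hG0 s) k)]
    exact pow_le_pow_left₀ (hG0 s) (hGC s) k
  have eP : ∫ t in a..b, g t ^ (m + 2) = ∫ t in Ioc a b, G t ^ (m + 2) := by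
    rw [intervalIntegral.integral_of_le hab]
    refine setIntegral_congr_fun measurableSet_Ioc fun s hs => ?_
    show g s ^ (m + 2) = (V s ^ ((1 : ℝ) / m)) ^ (m + 2)
    rw [hgV s ⟨hs.1.le, hs.2⟩]
  have hP0 : 0 ≤ ∫ t in a..b, g t ^ (m + 2) := by
    rw [eP]
    exact integral_nonneg fun s => pow_nonneg (hG0 s) _
  -- the second moment
  have hW : ∫ p in L, p.2 i ^ 2 ≤
      Γ ^ ((1 : ℝ) / m) * ∫ t in a..b, g t ^ (m + 2) := by
    rw [int_slice' hL hab hout (f := fun p => p.2 i ^ 2) (by fun_prop), eP,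
      intervalIntegral.integral_of_le hab, ← integral_const_mul]
    refine integral_mono_of_nonneg (Filter.Eventually.of_forall fun s =>
      integral_nonneg fun y => sq_nonneg _) ((hGint (m + 2)).const_mul _)
      (Filter.Eventually.of_forall fun s => ?_)
    simp only
    have h0 : 0 ≤ ∫ y in {y | (s, y) ∈ L}, y i ^ 2 := integral_nonneg fun y => sq_nonneg _
    refine le_of_pow_le_pow_left₀ hm0
      (mul_nonneg (Real.rpow_nonneg hΓ _) (pow_nonneg (hG0 s) _)) ?_
    refine (hB s).trans (le_of_eq ?_)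
    have hGp : G s ^ m = V s := by
      show (V s ^ ((1 : ℝ) / m)) ^ m = V s
      rw [← Real.rpow_natCast, ← Real.rpow_mul (hV0 s), one_div_mul_cancel hmR.ne', Real.rpow_one]
    have hgp : (Γ ^ ((1 : ℝ) / m)) ^ m = Γ := by
      rw [← Real.rpow_natCast, ← Real.rpow_mul hΓ, one_div_mul_cancel hmR.ne',
        Real.rpow_one]
    rw [mul_pow, hgp, ← pow_mul, mul_comm (m + 2) m, pow_mul, hGp]
  have hW0 : 0 ≤ ∫ p in L, p.2 i ^ 2 := integral_nonneg fun p => sq_nonneg _
  have hWm : (∫ p in L, p.2 i ^ 2) ^ m ≤ Γ * (∫ t in a..b, g t ^ (m + 2)) ^ m := by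
    refine (pow_le_pow_left₀ hW0 hW m).trans (le_of_eq ?_)
    rw [mul_pow, ← Real.rpow_natCast (Γ ^ ((1 : ℝ) / m)), ← Real.rpow_mul hΓ,
      one_div_mul_cancel hmR.ne', Real.rpow_one]
  -- Cauchy-Schwarz
  have hCS : 0 ≤ (volume L).toReal * (∫ p in L, p.1 ^ 2) - (∫ p in L, p.1) ^ 2 := by
    rcases (ENNReal.toReal_nonneg (a := volume L)).eq_or_lt with h0 | h0
    · have hv : volume L = 0 := by
        rcases (ENNReal.toReal_eq_zero_iff _).1 h0.symm with h | h
        · exact h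
        · exact absurd h hL.measure_lt_top.ne
      rw [Measure.restrict_eq_zero.2 hv]
      simp
    · have i1 : IntegrableOn (fun p : ℝ × (Fin m → ℝ) => p.1) L :=
        (by fun_prop : Continuous fun p : ℝ × (Fin m → ℝ) => p.1).continuousOn.integrableOn_compact hL
      have i2 : IntegrableOn (fun p : ℝ × (Fin m → ℝ) => p.1 ^ 2) L :=
        (by fun_prop : Continuous fun p : ℝ × (Fin m → ℝ) =>
          p.1 ^ 2).continuousOn.integrableOn_compact hL
      set M := (volume L).toReal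
      set S := ∫ p in L, p.1
      have h1 : 0 ≤ ∫ p in L, (M * p.1 - S) ^ 2 := integral_nonneg fun p => sq_nonneg _
      have h2 : ∫ p in L, (M * p.1 - S) ^ 2 = M ^ 2 * (∫ p in L, p.1 ^ 2) - 2 * M * S * S +
          S ^ 2 * M := by
        have e : ∀ p : ℝ × (Fin m → ℝ), (M * p.1 - S) ^ 2 =
            (M ^ 2 * p.1 ^ 2 - 2 * M * S * p.1) + S ^ 2 := fun p => by ring
        simp_rw [e]
        rw [integral_add, integral_sub, integral_const_mul, integral_const_mul, integral_const,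
          smul_eq_mul, Measure.real, Measure.restrict_apply_univ]
        · ring
        · exact i2.const_mul _
        · exact i1.const_mul _
        · exact (i2.const_mul _).sub (i1.const_mul _)
        · exact integrableOn_const hL.measure_lt_top.ne
      have h3 : 0 ≤ M * (M * (∫ p in L, p.1 ^ 2) - S ^ 2) := by
        rw [h2] at h1
        nlinarith
      exact nonneg_of_mul_nonneg_right h3 h0
  calc (∫ p in L, p.2 i ^ 2) ^ m *
        ((volume L).toReal * (∫ p in L, p.1 ^ 2) - (∫ p in L, p.1) ^ 2) ≤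
        (Γ * (∫ t in a..b, g t ^ (m + 2)) ^ m) *
        ((volume L).toReal * (∫ p in L, p.1 ^ 2) - (∫ p in L, p.1) ^ 2) :=
        mul_le_mul_of_nonneg_right hWm hCS
    _ = Γ * (((volume L).toReal * (∫ p in L, p.1 ^ 2) - (∫ p in L, p.1) ^ 2) *
        (∫ t in a..b, g t ^ (m + 2)) ^ m) := by ring
    _ ≤ Γ * (kap m * (volume L).toReal ^ (m + 4)) := by
        refine mul_le_mul_of_nonneg_left ?_ hΓ
        rw [eM, e1, e2]
        exact hone
    _ = Γ * kap m * (volume L).toReal ^ (m + 4) := by ring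


end

end Vale.Agent.P254.Rev
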