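import Vale.Agent.P254.Bdl.B2
import Vale.Agent.P254.Bdl.B10
import Vale.Agent.P254.Bdl.B17
import Vale.Agent.P254.Perm.Defs

/-! P254: numerical inequalities for the bodies with unconditional, symmetric slices. -/

namespace Vale.Agent.P254.Rev

open Perm

theorem simpC_kap (m : ℕ) : FV.simpC m * kap m = FV.simpC (m + 1) := by
  unfold FV.simpC kap
  rw [Nat.factorial_succ]
  push_cast
  have a1 : ((m : ℝ) + 1 + 1) = (m : ℝ) + 2 := by ring
  have a2 : ((m : ℝ) + 1 + 2) = (m : ℝ) + 3 := by ring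
  rw [a1, a2]
  have h1 : (0 : ℝ) < (m : ℝ) + 1 := by positivity
  have h2 : (0 : ℝ) < (m : ℝ) + 2 := by positivity
  have h3 : (0 : ℝ) < (m : ℝ) + 3 := by positivity
  rw [mul_pow, mul_pow ((m : ℝ) + 2) _ (m + 1), mul_pow ((m : ℝ) + 1) _ 2,
    pow_succ ((m : ℝ) + 2) m, show ((m : ℝ) + 1) ^ (m + 3) = ((m : ℝ) + 1) ^ m * ((m : ℝ) + 1) ^ 3
      from pow_add _ _ _]
  field_simp

theorem pow_le_aux {m : ℕ} (hm : 2 ≤ m) :
    (100 / 99 : ℝ) ^ (m + 3) ≤ (80 / 79) ^ (m + 2) := by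
  induction m, hm using Nat.le_induction with
  | base => norm_num
  | succ n hn ih =>
    have h : (100 / 99 : ℝ) ≤ 80 / 79 := by norm_num
    calc (100 / 99 : ℝ) ^ (n + 1 + 3) = (100 / 99) ^ (n + 3) * (100 / 99) := by ring
      _ ≤ (80 / 79) ^ (n + 2) * (80 / 79) := by gcongr
      _ = (80 / 79) ^ (n + 1 + 2) := by ring

end Vale.Agent.P254.Rev
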