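import Vale.Agent.P254.Rev.Body
import Vale.Agent.P254.Rev.Num
import Vale.Agent.P254.Perm.SymInt
import Vale.Agent.P254.Bdl.B2
import Vale.Agent.P254.Bdl.B4
import Vale.Agent.P254.Bdl.B5
import Vale.Agent.P254.Bdl.B7
import Vale.Agent.P254.Bdl.B10
import Vale.Agent.P254.Bdl.B13
import Vale.Agent.P254.Bdl.B17
import Vale.Agent.P254.Bdl.B20

/-!
P254: convex bodies in `ℝ^(m+1)` which are invariant under the changes of sign and the permutations
of the coordinates `1, …, m` (the coordinate `0` is free), in particular all bodies of revolution.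
-/

open MeasureTheory Set

namespace Vale.Agent.P254.Rev

open Perm Unc

/-- `K` is invariant under all changes of sign and all permutations of the coordinates `1, …, m`
(the coordinate `0` is free). -/
def SignPerm {m : ℕ} (K : Set (Fin (m + 1) → ℝ)) : Prop :=
  ∀ x ∈ K, ∀ (σ : Equiv.Perm (Fin m)) (y : Fin (m + 1) → ℝ), y 0 = x 0 →
    (∀ k : Fin m, |y k.succ| = |x (σ k).succ|) → y ∈ K

/-- `K` is a body of revolution with respect to the axis `0`: whether `x` is in `K` depends only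
on `x₀` and `x₁² + ⋯ + x_m²`. -/
def IsRev {m : ℕ} (K : Set (Fin (m + 1) → ℝ)) : Prop :=
  ∀ x ∈ K, ∀ y : Fin (m + 1) → ℝ, y 0 = x 0 →
    ∑ k : Fin m, y k.succ ^ 2 = ∑ k : Fin m, x k.succ ^ 2 → y ∈ K

theorem IsRev.signPerm {m : ℕ} {K : Set (Fin (m + 1) → ℝ)} (h : IsRev K) : SignPerm K := by
  intro x hx σ y h0 hy
  refine h x hx y h0 ?_
  have h1 : ∀ k : Fin m, y k.succ ^ 2 = x (σ k).succ ^ 2 := fun k => by
    rw [← sq_abs, hy k, sq_abs]
  rw [Finset.sum_congr rfl fun k _ => h1 k]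
  exact Equiv.sum_comp σ fun k => x k.succ ^ 2

section slice

variable {m : ℕ} {B : Set (Fin m → ℝ)}

/-- Invariance under transpositions: the second moments are equal. -/
theorem sq_eq (hp : ∀ (σ : Equiv.Perm (Fin m)), ∀ x ∈ B, (fun i => x (σ i)) ∈ B) (i j : Fin m) :
    ∫ x in B, x i ^ 2 = ∫ x in B, x j ^ 2 := by
  have h := SymInt.int_inv (SymInt.tr i j) (SymInt.tr_inv i j) (K := B)
    (fun x hx => hp (Equiv.swap i j) x hx) (fun x => x i ^ 2)
  rw [← h]
  refine integral_congr_ae (Filter.Eventually.of_forall fun x => ?_)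
  change x (Equiv.swap i j i) ^ 2 = x j ^ 2
  rw [Equiv.swap_apply_left]

theorem slice_bound (hm : 1 ≤ m) (hc : Convex ℝ B) (hK : IsCompact B) (hu : Uncond B)
    (hp : ∀ (σ : Equiv.Perm (Fin m)), ∀ x ∈ B, (fun i => x (σ i)) ∈ B) (i : Fin m) :
    (∫ y in B, y i ^ 2) ^ m ≤
      (((m : ℝ) + 1) / (8 * ((m : ℝ) + 2))) ^ m * (volume B).toReal ^ (m + 2) := by
  have hm0 : m ≠ 0 := by omega
  rcases (zero_le (a := volume B)).eq_or_lt with h0 | h0
  · rw [Measure.restrict_eq_zero.2 h0.symm, integral_zero_measure, zero_pow hm0]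
    positivity
  have hV : 0 < (volume B).toReal := ENNReal.toReal_pos h0.ne' hK.measure_lt_top.ne
  have hint : (interior B).Nonempty := by
    rw [nonempty_iff_ne_empty]
    intro he
    have h8 := hc.addHaar_frontier (volume : Measure (Fin m → ℝ))
    have h9 : B ⊆ frontier B := by
      rw [frontier, he, sdiff_empty]
      exact subset_closure
    exact h0.ne' (measure_mono_null h9 h8)
  have hb := unc_body (uncr_all m) ⟨hc, hK, hint⟩ hu
  rw [FB.cov_diag hu, Matrix.det_diagonal, div_le_iff₀ (by positivity)] at hb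
  have e : ∏ j : Fin m, (volume B).toReal⁻¹ * ∫ x in B, x j ^ 2 =
      ((volume B).toReal⁻¹ * ∫ x in B, x i ^ 2) ^ m := by
    rw [Finset.prod_congr rfl fun j _ => by rw [sq_eq hp j i], Finset.prod_const,
      Finset.card_univ, Fintype.card_fin]
  rw [e, mul_pow, inv_pow, ← div_eq_inv_mul, div_le_iff₀ (by positivity)] at hb
  refine hb.trans (le_of_eq ?_)
  rw [pow_add]
  ring

end slice

section body

variable {m : ℕ} {K : Set (Fin (m + 1) → ℝ)}

theorem slc_uncond (hs : SignPerm K) (s : ℝ) : Uncond (slc K s) := by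
  intro x hx y hy
  refine hs _ hx (Equiv.refl _) _ ?_ fun k => ?_
  · simp
  · simpa using hy k

theorem slc_perm (hs : SignPerm K) (s : ℝ) (σ : Equiv.Perm (Fin m)) :
    ∀ x ∈ slc K s, (fun i => x (σ i)) ∈ slc K s := by
  intro x hx
  refine hs _ hx σ _ ?_ fun k => ?_
  · simp
  · simp

/-- The bound of `det Cov / |K|²` for the bodies with free coordinate `0` which are invariant under
the changes of sign and the permutations of the other coordinates. -/
theorem sp_body (hm : 1 ≤ m) (hone : OneDim m) (hsec : SecSt m) (hK : IsConvexBody K)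
    (hs : SignPerm K) :
    (covMatrix K).det / (volume K).toReal ^ 2 ≤
      (((m : ℝ) + 1) / (8 * ((m : ℝ) + 2))) ^ m * kap m := by
  have hV := volume_pos_of_body hK
  refine det_le_gen hm hone hsec hK.1 hK.2.1 hV (by positivity) ?_ ?_ ?_
  · intro s i
    exact FB.int_odd (slc_uncond hs s) i (f := fun x => x i) (FB.refl_self i)
  · intro s i j hij
    refine FB.int_odd (slc_uncond hs s) i (f := fun x => x i * x j) fun x => ?_
    rw [FB.refl_self, FB.refl_ne (Ne.symm hij)]
    ring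
  · intro s i
    exact slice_bound hm (convex_slice (sp_convex hK.1) s) (isCompact_slice (sp_compact hK.2.1) s)
      (slc_uncond hs s) (slc_perm hs s) i

theorem num_near (hm : 2 ≤ m) :
    (100 / 99 : ℝ) ^ (m + 1 + 2) * ((((m : ℝ) + 1) / (8 * ((m : ℝ) + 2))) ^ m * kap m) <
      FV.simpC (m + 1) := by
  have h1 := pow_lt_factorial' hm
  have h2 := pow_le_aux hm
  rw [← simpC_kap, ← mul_assoc]
  have hk : 0 < kap m := by unfold kap; positivity
  refine mul_lt_mul_of_pos_right ?_ hk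
  unfold FV.simpC
  rw [lt_div_iff₀ (by positivity), div_pow ((m : ℝ) + 1) _ m, mul_pow (8 : ℝ) _ m,
    mul_pow ((m : ℝ) + 1) _ m]
  have h3 : ((m : ℝ) + 1) ^ (2 * m + 1) * (100 / 99) ^ (m + 3) < 8 ^ m * (m.factorial : ℝ) ^ 2 :=
    (mul_le_mul_of_nonneg_left h2 (by positivity)).trans_lt h1
  have e : (100 / 99 : ℝ) ^ (m + 1 + 2) * (((m : ℝ) + 1) ^ m / (8 ^ m * ((m : ℝ) + 2) ^ m)) *
      (((m : ℝ) + 1) * (((m : ℝ) + 1) ^ m * ((m : ℝ) + 2) ^ m)) =
      (((m : ℝ) + 1) ^ (2 * m + 1) * (100 / 99) ^ (m + 3)) / 8 ^ m := by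
    have e1 : ((m : ℝ) + 1) ^ (2 * m + 1) = ((m : ℝ) + 1) ^ m * ((m : ℝ) + 1) ^ m * ((m : ℝ) + 1) := by
      rw [← pow_add, ← pow_succ]; congr 1; ring
    rw [e1]
    field_simp
  rw [e, div_lt_iff₀ (by positivity)]
  linarith

/-- Near bodies: `K` fills at least `99/100` of an affine image of such a body. -/
theorem sp_near (hm : 2 ≤ m) (hone : OneDim m) (hsec : SecSt m)
    {U S : Set (Fin (m + 1) → ℝ)} (hK : IsConvexBody K) (hS : IsSimplex S)
    (hU : IsConvexBody U) (hs : SignPerm U) {A : Matrix (Fin (m + 1)) (Fin (m + 1)) ℝ}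
    (hA : A.det ≠ 0) {b : Fin (m + 1) → ℝ} (hKU : K ⊆ aff A b '' U)
    (hvol : (99 / 100) * (volume (aff A b '' U)).toReal ≤ (volume K).toReal) :
    isoConst K < isoConst S := by
  refine near_of_bound (by omega) hK hS hU hA hKU (s := 100 / 99) ?_
    (sp_body (by omega) hone hsec hU hs) ?_
  · linarith
  · exact num_near hm

end body

end Vale.Agent.P254.Rev
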